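import Vale.Agent.P011.H732D.Spec
import Vale.Agent.P011.H271.KSF

/-!
# Numbers for the reduction to the centralizer, function fields

Approximation with one pole; a grid avoids the common zeros of two polynomials modulo a place;
grids exist; coprime polynomials have no common zeros modulo almost all places.
-/

open Module Polynomial

set_option linter.unusedSectionVars false

namespace Vale.Agent.P011.H496.NumF

open Vale.Agent.P011.H738 Vale.Agent.P011.H271

/-- **Approximation with one pole.** -/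
theorem near_int {k : Type} [Field k] [GFF k] (S : Finset (Place k)) (q : Place k) (hq : q ∉ S)
    (c : Place k → k) {ε : ℝ} (hε : 0 < ε) : ∃ μ : k, (∀ v ∈ S, v.abv (μ - c v) < ε) ∧
      ∀ v ∉ S, v ≠ q → v.abv μ ≤ 1 := by
  classical
  obtain ⟨C, hC⟩ := place_strong q S hq (half_pos hε)
  obtain ⟨y, hy1, hy2, -⟩ := hC (fun v => if v ∈ S then c v else 0) (by
    refine S.finite_toSet.subset fun v hv => ?_
    by_contra h
    have h' : v ∉ S := fun h'' => h (Finset.mem_coe.2 h'')
    rw [Set.mem_ofPred_eq, if_neg h', map_zero] at hv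
    exact absurd hv (by norm_num))
  refine ⟨y, fun v hv => ?_, fun v hv hvq => ?_⟩
  · have h1 := hy1 v hv
    rw [if_pos hv, AbsoluteValue.map_sub] at h1
    linarith
  · have h1 := hy2 v hvq
    rwa [if_neg hv, zero_sub, AbsoluteValue.map_neg] at h1

theorem numA : H732D.NumA := fun _ _ _ S q hq c _ hε => near_int S q hq c hε

/-- The version with one size for each place. -/
theorem near_int_fam {k : Type} [Field k] [GFF k] {S : Set (Place k)} (hS : S.Finite) (q : Place k)
    (hq : q ∉ S) (c : Place k → k) (ε : Place k → ℝ) (hε : ∀ v ∈ S, 0 < ε v) :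
    ∃ μ : k, (∀ v ∈ S, v.abv (μ - c v) < ε v) ∧ ∀ v ∉ S, v ≠ q → v.abv μ ≤ 1 := by
  classical
  obtain ⟨m, hm, hm'⟩ : ∃ m : ℝ, 0 < m ∧ ∀ v ∈ S, m ≤ ε v := by
    rcases S.eq_empty_or_nonempty with h | h
    · refine ⟨1, one_pos, fun v hv => ?_⟩
      rw [h] at hv
      exact absurd hv (Set.notMem_empty v)
    · obtain ⟨v0, hv0, h0⟩ := hS.exists_minimalFor ε S h
      refine ⟨ε v0, hε v0 hv0, fun v hv => ?_⟩
      rcases le_total (ε v0) (ε v) with h1 | h1
      · exact h1
      · exact h0 hv h1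
  obtain ⟨μ, h1, h2⟩ := near_int hS.toFinset q (by rwa [Set.Finite.mem_toFinset]) c hm
  refine ⟨μ, fun v hv => (h1 v (hS.mem_toFinset.2 hv)).trans_le (hm' v hv), fun v hv hvq =>
    h2 v (by rwa [Set.Finite.mem_toFinset]) hvq⟩

section nonarch

variable {k : Type} [Field k] (v : Place k)

theorem eval_le {U : k[X]} (hU : ∀ l, v.abv (U.coeff l) ≤ 1) {x : k} (hx : v.abv x ≤ 1) :
    v.abv (U.eval x) ≤ 1 := by
  have hsum : ∀ (s : Finset ℕ) (g : ℕ → k), (∀ i ∈ s, v.abv (g i) ≤ 1) →
      v.abv (∑ i ∈ s, g i) ≤ 1 := by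
    classical
    intro s g
    induction s using Finset.induction_on with
    | empty => intro _; rw [Finset.sum_empty, map_zero]; exact zero_le_one
    | insert a s ha ih =>
      intro h
      rw [Finset.sum_insert ha]
      exact (v.nonarch _ _).trans (max_le (h a (Finset.mem_insert_self _ _))
        (ih fun i hi => h i (Finset.mem_insert_of_mem hi)))
  rw [eval_eq_sum_range]
  refine hsum _ _ fun i _ => ?_
  rw [map_mul, map_pow]
  exact mul_le_one₀ (hU i) (by positivity) (pow_le_one₀ (v.abv.nonneg _) hx)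

theorem sum_lt {ι : Type} (s : Finset ι) (g : ι → k) (h : ∀ i ∈ s, v.abv (g i) < 1) :
    v.abv (∑ i ∈ s, g i) < 1 := by
  classical
  induction s using Finset.induction_on with
  | empty => rw [Finset.sum_empty, map_zero]; exact zero_lt_one
  | insert a s ha ih =>
    rw [Finset.sum_insert ha]
    exact (v.nonarch _ _).trans_lt (max_lt (h a (Finset.mem_insert_self _ _))
      (ih fun i hi => h i (Finset.mem_insert_of_mem hi)))

/-- A polynomial of degree at most `m` with a unit as coefficient of degree `m` has at most `m`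
zeros modulo `v` on a grid. -/
theorem card_zero_le {m : ℕ} {U : k[X]} (hU : U.natDegree ≤ m) (hc : v.abv (U.coeff m) = 1)
    (Θ : Finset k) (hd : ∀ x ∈ Θ, ∀ y ∈ Θ, x ≠ y → v.abv (x - y) = 1)
    (hz : ∀ x ∈ Θ, v.abv (U.eval x) < 1) : Θ.card ≤ m := by
  classical
  by_contra hcon
  rw [not_le] at hcon
  obtain ⟨s, hs, hcard⟩ := Finset.exists_subset_card_eq (show m + 1 ≤ Θ.card from hcon)
  have h1 := Lagrange.coeff_eq_sum (s := s) (v := (id : k → k)) (fun a _ b _ h => h) (P := U) (by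
    refine lt_of_le_of_lt degree_le_natDegree ?_
    rw [hcard]
    exact_mod_cast Nat.lt_succ_of_le hU)
  rw [hcard, Nat.add_sub_cancel] at h1
  have h2 : v.abv (U.coeff m) < 1 := by
    rw [h1]
    refine sum_lt v _ _ fun a ha => ?_
    have h3 : v.abv (∏ j ∈ s.erase a, (id a - id j)) = 1 := by
      rw [map_prod]
      refine Finset.prod_eq_one fun b hb => ?_
      rw [Finset.mem_erase] at hb
      exact hd a (hs ha) b (hs hb.2) hb.1.symm
    rw [map_div₀, h3, div_one]
    exact hz a (hs ha)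
  rw [hc] at h2
  exact lt_irrefl _ h2

/-- **A grid avoids the common zeros modulo `v`.** -/
theorem grid {m : ℕ} {U V : k[X]} (hU : U.natDegree ≤ m) (hV : V.natDegree ≤ m)
    (hU1 : ∀ l, v.abv (U.coeff l) ≤ 1) (hV1 : ∀ l, v.abv (V.coeff l) ≤ 1)
    (h : v.abv (U.coeff m) = 1 ∨ v.abv (V.coeff m) = 1) (Θ : Finset k)
    (hi : ∀ x ∈ Θ, v.abv x ≤ 1) (hd : ∀ x ∈ Θ, ∀ y ∈ Θ, x ≠ y → v.abv (x - y) = 1) :
    ∃ B : Finset k, B.card ≤ m ∧ ∀ x ∈ Θ, x ∉ B →
      v.abv (U.eval x) = 1 ∨ v.abv (V.eval x) = 1 := by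
  classical
  have key : ∀ W : k[X], W.natDegree ≤ m → (∀ l, v.abv (W.coeff l) ≤ 1) →
      v.abv (W.coeff m) = 1 → ∃ B : Finset k, B.card ≤ m ∧ ∀ x ∈ Θ, x ∉ B →
        v.abv (W.eval x) = 1 := by
    intro W hW hW1 hWm
    refine ⟨Θ.filter fun x => v.abv (W.eval x) < 1, card_zero_le v hW hWm _
      (fun x hx y hy => hd x (Finset.mem_filter.1 hx).1 y (Finset.mem_filter.1 hy).1)
      fun x hx => (Finset.mem_filter.1 hx).2, fun x hx hxB => ?_⟩
    rw [Finset.mem_filter, not_and, not_lt] at hxB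
    exact le_antisymm (eval_le v hW1 (hi x hx)) (hxB hx)
  rcases h with h | h
  · obtain ⟨B, h1, h2⟩ := key U hU hU1 h
    exact ⟨B, h1, fun x hx hxB => Or.inl (h2 x hx hxB)⟩
  · obtain ⟨B, h1, h2⟩ := key V hV hV1 h
    exact ⟨B, h1, fun x hx hxB => Or.inr (h2 x hx hxB)⟩

end nonarch

theorem numB : H732D.NumB := fun _ _ _ v _ _ _ hU hV hU1 hV1 h Θ hi hd =>
  grid v hU hV hU1 hV1 h Θ hi hd

section gff

variable {k : Type} [Field k] [GFF k]

/-- The places at which some element of a finite set is neither zero nor a unit. -/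
theorem fin_units (E : Finset k) : {v : Place k | ∃ x ∈ E, x ≠ 0 ∧ v.abv x ≠ 1}.Finite := by
  classical
  have h1 : (⋃ a ∈ E.erase 0, {v : Place k | v.abv a ≠ 1}).Finite :=
    Set.Finite.biUnion (Finset.finite_toSet _) fun a ha =>
      place_finite (Finset.mem_erase.1 (Finset.mem_coe.1 ha)).1
  refine h1.subset ?_
  rintro v ⟨x, hx, h0, hv⟩
  simp only [Set.mem_iUnion]
  exact ⟨x, Finset.mem_coe.2 (Finset.mem_erase.2 ⟨h0, hx⟩), hv⟩

/-- **Grids exist**: outside a finite set of places a given finite set consists of integral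
elements with unit differences. -/
theorem grid_good (Θ : Finset k) : {v : Place k | ¬ ((∀ x ∈ Θ, v.abv x ≤ 1) ∧
    ∀ x ∈ Θ, ∀ y ∈ Θ, x ≠ y → v.abv (x - y) = 1)}.Finite := by
  classical
  refine (fin_units (Θ ∪ (Θ ×ˢ Θ).image fun p => p.1 - p.2)).subset fun v hv => ?_
  by_contra hcon
  apply hv
  have h : ∀ x ∈ Θ ∪ (Θ ×ˢ Θ).image (fun p => p.1 - p.2), x ≠ 0 → v.abv x = 1 := by
    intro x hx h0
    by_contra h
    exact hcon ⟨x, hx, h0, h⟩
  refine ⟨fun x hx => ?_, fun x hx y hy hxy => ?_⟩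
  · by_cases h0 : x = 0
    · rw [h0, map_zero]
      exact zero_le_one
    · exact (h x (Finset.mem_union_left _ hx) h0).le
  · refine h _ (Finset.mem_union_right _ ?_) (sub_ne_zero.2 hxy)
    exact Finset.mem_image.2 ⟨(x, y), Finset.mem_product.2 ⟨hx, hy⟩, rfl⟩

theorem exists_grid (q : Place k) (n : ℕ) : ∃ Θ : Finset k, Θ.card = n := by
  have := NeFF.infinite_of_place q
  obtain ⟨s, hs⟩ := Infinite.exists_subset_card_eq k n
  exact ⟨s, hs⟩

/-- The coefficients of a polynomial are integral outside a finite set. -/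
theorem fin_coeff (U : k[X]) : {v : Place k | ¬ ∀ l, v.abv (U.coeff l) ≤ 1}.Finite := by
  classical
  refine (fin_units (U.support.image U.coeff)).subset fun v hv => ?_
  have hv' : ¬ ∀ l, v.abv (U.coeff l) ≤ 1 := hv
  push Not at hv'
  obtain ⟨l, hl⟩ := hv'
  have h0 : U.coeff l ≠ 0 := by
    intro h
    rw [h, map_zero] at hl
    exact absurd hl (by norm_num)
  exact ⟨_, Finset.mem_image_of_mem _ (mem_support_iff.2 h0), h0, hl.ne'⟩

/-- **Coprime polynomials have no common zero modulo almost all places.** -/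
theorem cop_good {U V : k[X]} (h : IsCoprime U V) : {v : Place k | ¬ ((∀ l, v.abv (U.coeff l) ≤ 1) ∧
    (∀ l, v.abv (V.coeff l) ≤ 1) ∧ ∀ x : k, v.abv x ≤ 1 →
      v.abv (U.eval x) = 1 ∨ v.abv (V.eval x) = 1)}.Finite := by
  obtain ⟨A, C, hAC⟩ := h
  refine (((fin_coeff U).union (fin_coeff V)).union ((fin_coeff A).union
    (fin_coeff C))).subset fun v hv => ?_
  by_contra hcon
  simp only [Set.mem_union, not_or, Set.mem_ofPred_eq, not_not] at hcon
  obtain ⟨⟨hU, hV⟩, hA, hC⟩ := hcon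
  apply hv
  refine ⟨hU, hV, fun x hx => ?_⟩
  by_contra hb
  rw [not_or] at hb
  have hU' := lt_of_le_of_ne (eval_le v hU hx) hb.1
  have hV' := lt_of_le_of_ne (eval_le v hV hx) hb.2
  have h1 : v.abv ((A * U + C * V).eval x) < 1 := by
    rw [eval_add, eval_mul, eval_mul]
    refine (v.nonarch _ _).trans_lt (max_lt ?_ ?_)
    · rw [map_mul]
      exact mul_lt_one_of_nonneg_of_lt_one_right (eval_le v hA hx) (v.abv.nonneg _) hU'
    · rw [map_mul]
      exact mul_lt_one_of_nonneg_of_lt_one_right (eval_le v hC hx) (v.abv.nonneg _) hV'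
  rw [hAC, eval_one, map_one] at h1
  exact lt_irrefl _ h1

end gff

end Vale.Agent.P011.H496.NumF
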