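import Vale.Agent.P011.H73.Sp2

/-!
Smallness at a place of the ground field and absolute values in an extension, through a linear map:
global function fields.
-/

open Module

set_option linter.unusedSectionVars false

namespace Vale.Agent.P011.H496.NF

open Vale.Agent.P011.H738 Vale.Agent.P011.H271 Vale.Agent.P011.H182 Vale.Agent.P011.H73
open Vale.Agent.P011.H271.S3 (Ab)

variable {k D : Type} [Field k] [GFF k] [DivisionRing D] [Algebra k D] {N : ℕ}
  (B : Basis (Fin N) k D)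

/-- Small elements of the ground field. -/
theorem exists_small_abv (v : Place k) {ε : ℝ} (hε : 0 < ε) : ∃ x : k, x ≠ 0 ∧ v.abv x < ε := by
  obtain ⟨π, hπ⟩ := Sp.exists_lt_one v
  obtain ⟨n, hn⟩ := exists_pow_lt_of_lt_one hε hπ
  exact ⟨(π : k) ^ n, pow_ne_zero n π.ne_zero, by rwa [map_pow]⟩

/-- The image by a linear map of an element which is small at the places above `v` is small. -/
theorem near_of_valF {E : Type} [Field E] [GFF E] [Algebra k E] [FiniteDimensional k E]
    [Algebra.IsSeparable k E] (φ : E →ₗ[k] D) (v : Place k) {ε : ℝ} (hε : 0 < ε) :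
    ∃ c : k, c ≠ 0 ∧ ∀ z : E, (∀ w : Place E, Ab w v → w.abv z < w.abv (algebraMap k E c)) →
      na B v.abv (φ z) < ε := by
  let c := Module.finBasis k E
  obtain ⟨C, hC⟩ : ∃ C : ℝ, C = ∑ i, na B v.abv (φ (c i)) := ⟨_, rfl⟩
  have hC0 : 0 ≤ C := by rw [hC]; exact Finset.sum_nonneg fun i _ => na_nonneg B _ _
  obtain ⟨η, hη⟩ := Sp.coord_small (E := E) c v (γ := ε / (C + 1)) (by positivity)
  refine ⟨η, η.ne_zero, fun f hf => ?_⟩
  have h1 := hη f hf
  have h2 : φ f = ∑ i, c.repr f i • φ (c i) := by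
    conv_lhs => rw [← c.sum_repr f]
    rw [map_sum]
    exact Finset.sum_congr rfl fun i _ => map_smul _ _ _
  rw [h2]
  refine (na_sum_le B _ _ _).trans_lt ?_
  have h3 : ∀ i ∈ (Finset.univ : Finset (Fin (Module.finrank k E))),
      na B v.abv (c.repr f i • φ (c i)) ≤ ε / (C + 1) * na B v.abv (φ (c i)) := by
    intro i _
    rw [na_smul]
    exact mul_le_mul_of_nonneg_right (h1 i).le (na_nonneg B _ _)
  refine (Finset.sum_le_sum h3).trans_lt ?_
  rw [← Finset.mul_sum, ← hC, div_mul_eq_mul_div, div_lt_iff₀ (by positivity)]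
  nlinarith

/-- The converse: an element with small image by an injective linear map is small at the places
above `v`. -/
theorem val_of_nearF {E : Type} [Field E] [Algebra k E] [FiniteDimensional k E]
    (φ : E →ₗ[k] D) (hφ : Function.Injective φ) {v : Place k} {w : Place E} (hw : Ab w v)
    {γ : ℝ} (hγ : 0 < γ) :
    ∃ ε : ℝ, 0 < ε ∧ ∀ z : E, na B v.abv (φ z) < ε → w.abv z < γ := by
  classical
  obtain ⟨ψ, hψ⟩ := φ.exists_leftInverse_of_injective (LinearMap.ker_eq_bot.mpr hφ)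
  have hψ' : ∀ z, ψ (φ z) = z := fun z => LinearMap.congr_fun hψ z
  have key : ∀ i : Fin N, ∃ ε : ℝ, 0 < ε ∧ ∀ c : k, v.abv c < ε →
      w.abv (c • ψ (B i)) < γ := by
    intro i
    have hp : 0 ≤ w.abv (ψ (B i)) := w.abv.nonneg _
    obtain ⟨δ, hδ, h⟩ := hw.small (ε := γ / (w.abv (ψ (B i)) + 1)) (by positivity)
    refine ⟨δ, hδ, fun c hc => ?_⟩
    have h1 := h c hc
    rw [lt_div_iff₀ (by positivity)] at h1
    rw [Algebra.smul_def, map_mul]
    refine lt_of_le_of_lt (mul_le_mul_of_nonneg_left ?_ (w.abv.nonneg _)) h1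
    linarith
  choose δ hδ0 hδ using key
  obtain ⟨ε, hε0, hε⟩ : ∃ ε : ℝ, 0 < ε ∧ ∀ i : Fin N, ε ≤ δ i := by
    rcases isEmpty_or_nonempty (Fin N) with h | h
    · exact ⟨1, one_pos, fun i => h.elim i⟩
    · obtain ⟨i₀, h0⟩ := Finite.exists_min δ
      exact ⟨δ i₀, hδ0 i₀, h0⟩
  refine ⟨ε, hε0, fun z hz => ?_⟩
  have h1 : z = ∑ i, B.repr (φ z) i • ψ (B i) := by
    conv_lhs => rw [← hψ' z, ← B.sum_repr (φ z)]
    rw [map_sum]
    exact Finset.sum_congr rfl fun i _ => map_smul _ _ _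
  rw [h1]
  refine Sp.sum_lt w _ _ hγ fun i _ => hδ i _ ?_
  exact ((coord_le_na B v.abv (φ z) i).trans_lt hz).trans_le (hε i)

end Vale.Agent.P011.H496.NF
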