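import Vale.Agent.P011.H704.HQ.Pu
import Vale.Agent.P011.H496.NearValF

/-!
Function fields: an antisymmetric element which anticommutes with `t` can be changed, at almost
every place, so that its square becomes close to one.
-/

open Module Polynomial

set_option linter.unusedSectionVars false

namespace Vale.Agent.P011.H496.NF

open Vale.Agent.P011.H738 Vale.Agent.P011.H271 Vale.Agent.P011.H182 Vale.Agent.P011.H73
open Vale.Agent.P011.H271.S3 (Ab)
open Vale.Agent.P011.H976.FF Vale.Agent.P011.H305 Vale.Agent.P011.H872.FF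
open Vale.Agent.P011.Arith (NF)
open Vale.Agent.P011.H63.FB (LSF incF badF)
open Vale.Agent.P011.H698 (Sm)

section loc

variable {F : Type} [Field F] [GFF F]

/-- A local norm up to a local square is approximated by norms. -/
theorem exists_norm_near {α β : Fˣ} {ω : Place F} (h : β ∈ NF α ⊔ LSF ω) {γ : ℝ} (hγ : 0 < γ) :
    ∃ x y : F, ω.abv (x ^ 2 - α * y ^ 2 - β) < γ := by
  obtain ⟨n, ⟨x, y, hn⟩, l, hl, hnl⟩ := Subgroup.mem_sup.mp h
  obtain ⟨μ, hμ⟩ := hl
  have hμ0 : μ ≠ 0 := by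
    rintro rfl
    rw [mul_zero, map_eq_zero] at hμ
    exact l.ne_zero hμ
  have hμp : 0 < ‖μ‖ := norm_pos_iff.mpr hμ0
  have hnp : 0 < ω.abv (n : F) := ω.abv.pos n.ne_zero
  obtain ⟨m, hm⟩ := dense_alg ω μ (ε := min ‖μ‖ (γ / (ω.abv (n : F) * ‖μ‖)))
    (lt_min hμp (by positivity))
  refine ⟨x * m, y * m, ?_⟩
  have e : (x * m) ^ 2 - α * (y * m) ^ 2 - β = n * (m ^ 2 - l) := by
    rw [← hnl, Units.val_mul, hn]
    ring
  rw [e, map_mul, ← norm_alg ω (m ^ 2 - l), map_sub, map_pow, hμ]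
  have e2 : algebraMap F ω.comp m ^ 2 - μ * μ =
      (μ - algebraMap F ω.comp m) * ((μ - algebraMap F ω.comp m) - 2 * μ) := by ring
  have h1 := hm.trans_le (min_le_left _ _)
  have h2 := hm.trans_le (min_le_right _ _)
  have h3 : ‖(μ - algebraMap F ω.comp m) - 2 * μ‖ ≤ ‖μ‖ := by
    have h4 : ‖2 * μ‖ ≤ ‖μ‖ := by
      rw [two_mul]
      exact (IsUltrametricDist.norm_add_le_max _ _).trans (max_self _).le
    rw [sub_eq_add_neg]
    refine (IsUltrametricDist.norm_add_le_max _ _).trans (max_le h1.le ?_)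
    rwa [norm_neg]
  rw [e2, norm_mul]
  rw [lt_div_iff₀ (by positivity)] at h2
  calc ω.abv (n : F) * (‖μ - algebraMap F ω.comp m‖ *
        ‖(μ - algebraMap F ω.comp m) - 2 * μ‖)
      ≤ ω.abv (n : F) * (‖μ - algebraMap F ω.comp m‖ * ‖μ‖) := by gcongr
    _ = ‖μ - algebraMap F ω.comp m‖ * (ω.abv (n : F) * ‖μ‖) := by ring
    _ < γ := h2

/-- The norm form is continuous. -/
theorem norm_form_cont (ω : Place F) (α x y : F) {γ : ℝ} (hγ : 0 < γ) :
    ∃ η : ℝ, 0 < η ∧ ∀ p q : F, ω.abv (p - x) < η → ω.abv (q - y) < η →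
      ω.abv ((p ^ 2 - α * q ^ 2) - (x ^ 2 - α * y ^ 2)) < γ := by
  obtain ⟨R, hR⟩ : ∃ R : ℝ, R = 1 + ω.abv x + ω.abv y := ⟨_, rfl⟩
  have hx0 := ω.abv.nonneg x
  have hy0 := ω.abv.nonneg y
  have hα0 := ω.abv.nonneg α
  have hR0 : 0 < R := by rw [hR]; positivity
  have key : ∀ p z η : _, ω.abv z ≤ R → η ≤ 1 → ω.abv (p - z) < η →
      ω.abv (p ^ 2 - z ^ 2) ≤ η * R := by
    intro p z η hz h1 h2
    have e : p ^ 2 - z ^ 2 = (p - z) * ((p - z) + (z + z)) := by ring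
    rw [e, map_mul]
    refine mul_le_mul h2.le ?_ (ω.abv.nonneg _) ((ω.abv.nonneg _).trans h2.le)
    refine (ω.nonarch _ _).trans (max_le ?_ ((ω.nonarch _ _).trans (max_le hz hz)))
    have : (1 : ℝ) ≤ R := by rw [hR]; linarith
    linarith
  refine ⟨min 1 (γ / (R * (1 + ω.abv α) + 1)), lt_min one_pos (by positivity), ?_⟩
  intro p q hp hq
  obtain ⟨η, hη⟩ : ∃ η : ℝ, η = min 1 (γ / (R * (1 + ω.abv α) + 1)) := ⟨_, rfl⟩
  rw [← hη] at hp hq
  have hη1 : η ≤ 1 := by rw [hη]; exact min_le_left _ _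
  have hη2 : η * (R * (1 + ω.abv α) + 1) ≤ γ := by
    rw [← le_div_iff₀ (by positivity), hη]
    exact min_le_right _ _
  have hη0 : 0 < η := (ω.abv.nonneg _).trans_lt hp
  have h1 := key p x η (by rw [hR]; linarith) hη1 hp
  have h2 := key q y η (by rw [hR]; linarith) hη1 hq
  have e : (p ^ 2 - α * q ^ 2) - (x ^ 2 - α * y ^ 2) =
      (p ^ 2 - x ^ 2) + (-α) * (q ^ 2 - y ^ 2) := by ring
  rw [e]
  refine (ω.nonarch _ _).trans_lt (max_lt ?_ ?_)
  · refine h1.trans_lt ?_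
    nlinarith [mul_nonneg hη0.le (mul_nonneg hR0.le hα0)]
  · rw [map_mul, ω.abv.map_neg]
    calc ω.abv α * ω.abv (q ^ 2 - y ^ 2) ≤ ω.abv α * (η * R) :=
          mul_le_mul_of_nonneg_left h2 hα0
      _ < γ := by nlinarith [mul_nonneg hη0.le (mul_nonneg hR0.le hα0), mul_pos hη0 hR0]

/-- Weak approximation by norms. -/
theorem exists_norm_approx {α β : Fˣ} (T : Finset (Place F))
    (hT : ∀ ω ∈ T, β ∈ NF α ⊔ LSF ω) (γ : Place F → ℝ) (hγ : ∀ ω ∈ T, 0 < γ ω) :
    ∃ p q : F, ∀ ω ∈ T, ω.abv (p ^ 2 - α * q ^ 2 - β) < γ ω := by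
  classical
  have h1 : ∀ ω : Place F, ∃ x y : F, ∃ η : ℝ, 0 < η ∧ (ω ∈ T → ∀ p q : F,
      ω.abv (p - x) < η → ω.abv (q - y) < η → ω.abv (p ^ 2 - α * q ^ 2 - β) < γ ω) := by
    intro ω
    by_cases hω : ω ∈ T
    · obtain ⟨x, y, hxy⟩ := exists_norm_near (hT ω hω) (hγ ω hω)
      obtain ⟨η, hη, h⟩ := norm_form_cont ω (α : F) x y (hγ ω hω)
      refine ⟨x, y, η, hη, fun _ p q hp hq => ?_⟩
      have h2 := h p q hp hq
      have e : p ^ 2 - α * q ^ 2 - β = ((p ^ 2 - α * q ^ 2) - (x ^ 2 - α * y ^ 2)) +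
          (x ^ 2 - α * y ^ 2 - β) := by ring
      rw [e]
      exact (ω.nonarch _ _).trans_lt (max_lt h2 hxy)
    · exact ⟨0, 0, 1, one_pos, fun h => absurd h hω⟩
  choose x y η hη h using h1
  obtain ⟨ε, hε, hle⟩ := H698.exists_pos_le (fun ω : T => η (ω : Place F)) fun ω => hη ω
  obtain ⟨p, hp⟩ := H973.PF.weakP T x hε
  obtain ⟨q, hq⟩ := H973.PF.weakP T y hε
  exact ⟨p, q, fun ω hω => h ω hω p q ((hp ω hω).trans_le (hle ⟨ω, hω⟩))
    ((hq ω hω).trans_le (hle ⟨ω, hω⟩))⟩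

end loc

section alg

variable {k D : Type} [Field k] [DivisionRing D] [StarRing D] [Algebra k D]
  {F : Type} [Field F] [Algebra k F] {ι : F →ₐ[k] D} {α β : Fˣ} {i j : D}

/-- Dividing `j` by an element of the quadratic field `F(i)`. -/
theorem div_conj (fr : QFrF ι α β i j) {p q : F} (h0 : p ^ 2 - α * q ^ 2 ≠ 0) :
    (ι p + ι q * i) ≠ 0 ∧ star ((ι p + ι q * i)⁻¹ * j) = -((ι p + ι q * i)⁻¹ * j) ∧
      (ι p + ι q * i)⁻¹ * j * ((ι p + ι q * i)⁻¹ * j) = ι (β / (p ^ 2 - α * q ^ 2)) := by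
  obtain ⟨w, hw⟩ : ∃ w, w = ι p + ι q * i := ⟨_, rfl⟩
  obtain ⟨w', hw'⟩ : ∃ w', w' = ι p - ι q * i := ⟨_, rfl⟩
  have hmul : w * w' = ι (p ^ 2 - α * q ^ 2) := by
    have e1 : ι q * i * (ι q * i) = ι (α * q ^ 2) := by
      rw [mul_assoc, ← mul_assoc i, ← fr.ci, mul_assoc, fr.ii, ← map_mul, ← map_mul]
      congr 1
      ring
    have e2 : ι q * i * ι p = ι p * (ι q * i) := by
      rw [mul_assoc, ← fr.ci, ← mul_assoc, ← map_mul, mul_comm q p, map_mul, mul_assoc]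
    rw [hw, hw', add_mul, mul_sub, mul_sub, e1, e2, map_sub, ← map_mul, ← pow_two]
    abel
  have hmul' : w' * w = ι (p ^ 2 - α * q ^ 2) := by
    have e1 : ι q * i * (ι q * i) = ι (α * q ^ 2) := by
      rw [mul_assoc, ← mul_assoc i, ← fr.ci, mul_assoc, fr.ii, ← map_mul, ← map_mul]
      congr 1
      ring
    have e2 : ι q * i * ι p = ι p * (ι q * i) := by
      rw [mul_assoc, ← fr.ci, ← mul_assoc, ← map_mul, mul_comm q p, map_mul, mul_assoc]
    rw [hw, hw', sub_mul, mul_add, mul_add, e1, e2, map_sub, ← map_mul, ← pow_two]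
    abel
  have hι0 : ι (p ^ 2 - α * q ^ 2) ≠ 0 := (_root_.map_ne_zero _).mpr h0
  have hw0 : w ≠ 0 := by
    rintro rfl
    rw [zero_mul] at hmul
    exact hι0 hmul.symm
  have hw0' : w' ≠ 0 := by
    rintro rfl
    rw [mul_zero] at hmul
    exact hι0 hmul.symm
  have hstar : star w = w' := by
    rw [hw, hw', star_add, star_mul, fr.sym, fr.sym, fr.si, neg_mul, ← fr.ci, sub_eq_add_neg]
  have hji : j * i = -(i * j) := by rw [fr.ij, neg_neg]
  have hjw : j * w = w' * j := by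
    rw [hw, hw', mul_add, sub_mul, ← fr.cj, ← mul_assoc, ← fr.cj, mul_assoc, hji, mul_neg,
      ← mul_assoc, sub_eq_add_neg]
  have hjw' : j * w' = w * j := by
    rw [hw, hw', mul_sub, add_mul, ← fr.cj, ← mul_assoc, ← fr.cj, mul_assoc, hji, mul_neg,
      ← mul_assoc, sub_neg_eq_add]
  have hjwi : w⁻¹ * j = j * w'⁻¹ := by
    rw [inv_mul_eq_iff_eq_mul₀ hw0, ← mul_assoc, ← hjw', mul_assoc, mul_inv_cancel₀ hw0', mul_one]
  rw [← hw]
  refine ⟨hw0, ?_, ?_⟩
  · rw [star_mul, star_inv₀, hstar, fr.sj, neg_mul, hjwi]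
  · have e3 : w⁻¹ * j * (w⁻¹ * j) = w⁻¹ * (w'⁻¹ * (j * j)) := by
      have e4 : j * w⁻¹ = w'⁻¹ * j := by
        rw [eq_inv_mul_iff_mul_eq₀ hw0', ← mul_assoc, ← hjw, mul_assoc, mul_inv_cancel₀ hw0,
          mul_one]
      rw [mul_assoc, ← mul_assoc j, e4, mul_assoc]
    rw [e3, ← mul_assoc, ← mul_inv_rev, hmul', fr.jj, div_eq_mul_inv, mul_comm (β : F), map_mul,
      map_inv₀]

end alg

variable {k K D : Type} [Field k] [Field K] [StarRing K] [DivisionRing D] [StarRing D]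
  [Algebra k K] [Algebra k D] [Algebra K D] [IsScalarTower k K D] {d : kˣ} {s : K} {N : ℕ}

/-- **Almost everywhere, the square can be made close to one.** -/
theorem exists_near_one [GFF k] (hS : SetF k K D d s) {a : kˣ} {t : D} (ht : t ∈ XaF D a)
    (B : Basis (Fin N) k D) {j0 : D} (hj0 : j0 ≠ 0) (hj : star j0 = -j0)
    (hjt : j0 * t = -(t * j0)) (hsep : (minpoly k (j0 * j0)).Separable) :
    ∃ S : Set (Place k), S.Finite ∧ ∀ v ∉ S, ∀ ε : ℝ, 0 < ε → ∃ j1 : D, star j1 = -j1 ∧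
      j1 * t = -(t * j1) ∧ Sm B v ε (j1 * j1 - 1) := by
  classical
  have := hS.fin
  have hKf : FiniteDimensional k K := Module.finite_of_finrank_pos (by rw [hS.rank]; norm_num)
  have hDf : FiniteDimensional k D := Module.Finite.trans K D
  obtain ⟨F, _, _, _, _, ι, β, fr, hgen⟩ := H704.HQ.exists_qfr hS ht hj0 hj hjt
  have h2 : (2 : k) ≠ 0 := hS.two_ne
  have h2F : (2 : F) ≠ 0 := by
    rw [← map_ofNat (algebraMap k F) 2]
    exact (_root_.map_ne_zero _).mpr h2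
  have hFf : FiniteDimensional k F := FiniteDimensional.of_injective ι.toLinearMap ι.injective
  have hsF : Algebra.IsSeparable k F := by
    have h3 : IsSeparable k (β : F) := by
      change (minpoly k (β : F)).Separable
      rw [← minpoly.algHom_eq ι ι.injective, ← fr.jj]
      exact hsep
    have h4 : IntermediateField.adjoin k {(β : F)} = ⊤ := by
      rw [eq_top_iff]
      intro x _
      obtain ⟨p, rfl⟩ := hgen x
      exact IntermediateField.algebra_adjoin_le_adjoin k _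
        (aeval_mem_adjoin_singleton k (β : F))
    have h5 : Algebra.IsSeparable k (IntermediateField.adjoin k {(β : F)}) :=
      (IntermediateField.isSeparable_adjoin_simple_iff_isSeparable k F).mpr h3
    rw [h4] at h5
    exact Algebra.IsSeparable.of_algHom k _
      (IntermediateField.topEquiv (F := k) (E := F)).symm.toAlgHom
  have hfin := H279.RB.badF_finite h2F (incF k F (a * d)) β
  have hS1 := H271.S3.finite_below (k := k) hfin
  refine ⟨_, hS1, fun v hv ε hε => ?_⟩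
  obtain ⟨c, hc0, hc⟩ := near_of_valF B (ι.toLinearMap : F →ₗ[k] D) v hε
  have hTf : {ω : Place F | Ab ω v}.Finite := Sp.above_finite v
  have hcF : algebraMap k F c ≠ 0 := (_root_.map_ne_zero _).mpr hc0
  obtain ⟨p, q, hpq⟩ := exists_norm_approx (α := incF k F (a * d)) (β := β) hTf.toFinset
    (fun ω hω => by
      by_contra hcon
      exact hv ⟨ω, hcon, hTf.mem_toFinset.mp hω⟩)
    (fun ω => min 1 (ω.abv (algebraMap k F c)) * ω.abv (β : F))
    (fun ω _ => mul_pos (lt_min one_pos (ω.abv.pos hcF)) (ω.abv.pos β.ne_zero))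
  obtain ⟨n, hn⟩ : ∃ n : F, n = p ^ 2 - (incF k F (a * d) : Fˣ) * q ^ 2 := ⟨_, rfl⟩
  rw [← hn] at hpq
  have hval : ∀ ω : Place F, Ab ω v → n ≠ 0 ∧ ω.abv (β / n - 1) < ω.abv (algebraMap k F c) := by
    intro ω hω
    have h5 := hpq ω (hTf.mem_toFinset.mpr hω)
    have hβ : 0 < ω.abv (β : F) := ω.abv.pos β.ne_zero
    have h6 : ω.abv (n - β) < ω.abv (β : F) :=
      h5.trans_le (mul_le_of_le_one_left hβ.le (min_le_left _ _))
    have h7 : ω.abv (β : F) ≤ ω.abv n := by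
      by_contra h8
      rw [not_le] at h8
      have e : (β : F) = n - (n - β) := by ring
      have h9 : ω.abv (β : F) < ω.abv (β : F) := by
        conv_lhs => rw [e, sub_eq_add_neg]
        refine (ω.nonarch _ _).trans_lt (max_lt h8 ?_)
        rw [ω.abv.map_neg]
        exact h6
      exact lt_irrefl _ h9
    have hn0 : n ≠ 0 := by
      rintro rfl
      rw [map_zero] at h7
      exact absurd hβ (not_lt.mpr h7)
    refine ⟨hn0, ?_⟩
    have e : (β : F) / n - 1 = -((n - β) / n) := by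
      field_simp
      ring
    have hnp : 0 < ω.abv n := ω.abv.pos hn0
    rw [e, ω.abv.map_neg, map_div₀, div_lt_iff₀ hnp]
    refine h5.trans_le ((mul_le_mul_of_nonneg_right (min_le_right _ _) hβ.le).trans ?_)
    exact mul_le_mul_of_nonneg_left h7 (ω.abv.nonneg _)
  obtain ⟨ω0, hω0⟩ : ∃ w : Place F, Ab w v := Sp.exists_above v
  have hn0 := (hval ω0 hω0).1
  have hn0' : p ^ 2 - ((incF k F (a * d) : Fˣ) : F) * q ^ 2 ≠ 0 := hn ▸ hn0
  obtain ⟨hw0, hstar, hsq⟩ := div_conj fr hn0'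
  refine ⟨_, hstar, ?_, ?_⟩
  · -- anticommutes with `t`
    have hsne : algebraMap K D s ≠ 0 := (_root_.map_ne_zero _).mpr hS.s_ne
    have h8 : ∀ x : F, ι x * t = t * ι x := by
      intro x
      have h9 := fr.ci x
      have h10 : algebraMap K D s * (ι x * t) = algebraMap K D s * (t * ι x) := by
        rw [← mul_assoc, Algebra.commutes s (ι x), mul_assoc, h9, mul_assoc]
      exact mul_left_cancel₀ hsne h10
    have h9 : (algebraMap K D s * t) * t = t * (algebraMap K D s * t) := by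
      rw [← mul_assoc t, ← Algebra.commutes s t]
    have h10 : (ι p + ι q * (algebraMap K D s * t)) * t =
        t * (ι p + ι q * (algebraMap K D s * t)) := by
      rw [add_mul, mul_add, h8, mul_assoc, h9, ← mul_assoc, h8, mul_assoc]
    obtain ⟨w, hw⟩ : ∃ w, w = ι p + ι q * (algebraMap K D s * t) := ⟨_, rfl⟩
    rw [← hw] at h10 hw0 ⊢
    have h11 : w⁻¹ * t = t * w⁻¹ := by
      rw [inv_mul_eq_iff_eq_mul₀ hw0, ← mul_assoc, h10, mul_assoc, mul_inv_cancel₀ hw0, mul_one]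
    rw [mul_assoc, hjt, mul_neg, ← mul_assoc, h11, mul_assoc]
  · rw [hsq, ← hn]
    have h11 : ι (β / n) - 1 = ι.toLinearMap (β / n - 1) := by
      rw [AlgHom.toLinearMap_apply, map_sub, map_one]
    rw [h11]
    intro l
    exact (coord_le_na B v.abv _ l).trans_lt (hc _ fun ω hω => (hval ω hω).2)

end Vale.Agent.P011.H496.NF
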