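import Vale.Agent.P011.One.Near

/-!
Smallness at a place of the ground field and valuations in an extension, through a linear map.
-/

open NumberField IsDedekindDomain Module

set_option linter.unusedSectionVars false

namespace Vale.Agent.P011.H496

open Vale.Agent.P011.Arith Vale.Agent.P011.Even Vale.Agent.P011.Two Vale.Agent.P011.One

variable {k D : Type} [Field k] [NumberField k] [DivisionRing D] [Algebra k D] {N : ℕ}
  (B : Basis (Fin N) k D)

/-- The image by a linear map of an element which is small at the primes above `v` is small. -/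
theorem near_of_val {E : Type} [Field E] [NumberField E] [Algebra k E] (φ : E →ₗ[k] D)
    (v : HeightOneSpectrum (𝓞 k)) {ε : ℝ} (hε : 0 < ε) : ∃ c : k, c ≠ 0 ∧ ∀ z : E,
      (∀ w : HeightOneSpectrum (𝓞 E),
        Ideal.comap (algebraMap (𝓞 k) (𝓞 E)) w.asIdeal = v.asIdeal →
        w.valuation E z < w.valuation E (algebraMap k E c)) → nm B (.inl v) (φ z) < ε := by
  let c := Module.finBasis k E
  obtain ⟨C, hC⟩ : ∃ C : ℝ, C = ∑ i, nm B (.inl v) (φ (c i)) := ⟨_, rfl⟩
  have hC0 : 0 ≤ C := by rw [hC]; exact Finset.sum_nonneg fun i _ => nm_nonneg B _ _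
  obtain ⟨γ, hγ0, hγ⟩ := exists_abv_lt (.inl v : Pl k) (ε := ε / (C + 1)) (by positivity)
  obtain ⟨η, hη⟩ := coord_small (E := E) c v (Units.mk0 γ hγ0)
  refine ⟨η, η.ne_zero, fun f hf => ?_⟩
  have h1 := hη f hf
  have h2 : φ f = ∑ i, c.repr f i • φ (c i) := by
    conv_lhs => rw [← c.sum_repr f]
    rw [map_sum]
    exact Finset.sum_congr rfl fun i _ => map_smul _ _ _
  rw [h2]
  refine (nm_sum_le B _ _ _).trans_lt ?_
  have h3 : ∀ i ∈ (Finset.univ : Finset (Fin (Module.finrank k E))),
      nm B (.inl v) (c.repr f i • φ (c i)) ≤ plAbv (.inl v : Pl k) γ * nm B (.inl v) (φ (c i)) := by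
    intro i _
    rw [nm_smul]
    refine mul_le_mul_of_nonneg_right ?_ (nm_nonneg B _ _)
    exact ((plAbv_lt v _ _).mpr (h1 i)).le
  refine (Finset.sum_le_sum h3).trans_lt ?_
  rw [← Finset.mul_sum, ← hC]
  rw [lt_div_iff₀ (by positivity)] at hγ
  have h4 : 0 ≤ plAbv (.inl v : Pl k) γ := AbsoluteValue.nonneg _ _
  nlinarith

/-- The converse: an element with small image by an injective linear map is small at the primes
above `v`. -/
theorem val_of_near {E : Type} [Field E] [NumberField E] [Algebra k E] (φ : E →ₗ[k] D)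
    (hφ : Function.Injective φ) {v : HeightOneSpectrum (𝓞 k)} {w : HeightOneSpectrum (𝓞 E)}
    (hw : Ideal.comap (algebraMap (𝓞 k) (𝓞 E)) w.asIdeal = v.asIdeal) {γ : Z0} (hγ : γ ≠ 0) :
    ∃ ε : ℝ, 0 < ε ∧ ∀ z : E, nm B (.inl v) (φ z) < ε → w.valuation E z < γ := by
  classical
  obtain ⟨ψ, hψ⟩ := φ.exists_leftInverse_of_injective (LinearMap.ker_eq_bot.mpr hφ)
  have hψ' : ∀ z, ψ (φ z) = z := fun z => LinearMap.congr_fun hψ z
  have key : ∀ i : Fin N, ∃ ε : ℝ, 0 < ε ∧ ∀ c : k, plAbv (.inl v : Pl k) c < ε →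
      w.valuation E (c • ψ (B i)) < γ := by
    intro i
    by_cases h0 : ψ (B i) = 0
    · refine ⟨1, one_pos, fun c _ => ?_⟩
      rw [h0, smul_zero, map_zero]
      exact zero_lt_iff.mpr hγ
    · have hp0 : w.valuation E (ψ (B i)) ≠ 0 := (Valuation.ne_zero_iff _).mpr h0
      obtain ⟨x, hx⟩ := HeightOneSpectrum.valuation_surjective k v
        (min 1 (γ / w.valuation E (ψ (B i))))
      have hx0 : x ≠ 0 := by
        rintro rfl
        rw [map_zero] at hx
        rcases min_choice (1 : Z0) (γ / w.valuation E (ψ (B i))) with h | h <;> rw [h] at hx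
        · exact one_ne_zero hx.symm
        · exact div_ne_zero hγ hp0 hx.symm
      refine ⟨plAbv (.inl v) x, (plAbv (.inl v)).pos hx0, fun c hc => ?_⟩
      have h1 : v.valuation k c < v.valuation k x := (plAbv_lt v _ _).mp hc
      have h2 : w.valuation E (algebraMap k E c) < w.valuation E (algebraMap k E x) :=
        (val_lt_val_iff hw c x).mpr h1
      have h3 : w.valuation E (algebraMap k E x) ≤ v.valuation k x := by
        obtain ⟨e, he, hv⟩ := val_above hw
        rw [hv]
        exact pow_le_of_le_one zero_le (by rw [hx]; exact min_le_left _ _) he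
      have h4 : w.valuation E (algebraMap k E c) < γ / w.valuation E (ψ (B i)) :=
        h2.trans_le (h3.trans (by rw [hx]; exact min_le_right _ _))
      rw [Algebra.smul_def, map_mul]
      exact (lt_div_iff₀ (zero_lt_iff.mpr hp0)).mp h4
  choose δ hδ0 hδ using key
  obtain ⟨ε, hε0, hε⟩ := exists_le_all (Finset.univ : Finset (Fin N)) δ hδ0
  refine ⟨ε, hε0, fun z hz => ?_⟩
  have h1 : z = ∑ i, B.repr (φ z) i • ψ (B i) := by
    conv_lhs => rw [← hψ' z, ← B.sum_repr (φ z)]
    rw [map_sum]
    exact Finset.sum_congr rfl fun i _ => map_smul _ _ _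
  rw [h1]
  refine Valuation.map_sum_lt _ hγ fun i _ => hδ i _ ?_
  exact (nm_lt_coord B (.inl v) hz i).trans_le (hε i (Finset.mem_univ i))

end Vale.Agent.P011.H496
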