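import Vale.Agent.P011.H63.FBase

/-!
A point of the norm torus near the identity is a cube up to an arbitrarily small error, with a cube
root which is a rational point near the identity: global function fields.
-/

open scoped NNReal

set_option linter.unusedSectionVars false

namespace Vale.Agent.P011.H496.CF

open Vale.Agent.P011.H738 Vale.Agent.P011.H271 Vale.Agent.P011.H271.ConF

section seq

variable {k : Type} [Field k]

/-- The iteration which solves `κ * (1 + 3 * δ * m ^ 2) + 3 * m + δ * m ^ 3 = 0`. -/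
def itm (δ κ : k) : ℕ → k
  | 0 => 0
  | n + 1 => -(κ * (1 + 3 * δ * itm δ κ n ^ 2) + δ * itm δ κ n ^ 3) / 3

theorem itm_succ {δ κ : k} (h3 : (3 : k) ≠ 0) (n : ℕ) :
    3 * itm δ κ (n + 1) = -(κ * (1 + 3 * δ * itm δ κ n ^ 2) + δ * itm δ κ n ^ 3) := by
  rw [itm, mul_div_assoc', mul_div_cancel_left₀ _ h3]

variable {Γ : Type} [LinearOrderedCommGroupWithZero Γ] (v : Valuation k Γ)

/-- The conditions on the radius at one place. -/
structure Rad (δ κ : k) (r : Γ) : Prop where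
  h2 : v 2 ≤ 1
  h3 : v 3 ≤ 1
  h30 : v 3 ≠ 0
  hr : r ≤ 1
  hb : v δ * r ^ 2 < v 3
  hκ : v κ ≤ v 3 * r

variable {v} {δ κ : k} {r : Γ}

theorem Rad.b1 (h : Rad v δ κ r) : v δ * r ^ 2 ≤ 1 := h.hb.le.trans h.h3

theorem Rad.κ1 (h : Rad v δ κ r) : v κ ≤ r :=
  h.hκ.trans (mul_le_of_le_one_left' h.h3)

/-- `1 + 3 δ m ^ 2` is at most one. -/
theorem Rad.one_add (h : Rad v δ κ r) {m : k} (hm : v m ≤ r) : v (1 + 3 * δ * m ^ 2) ≤ 1 := by
  refine (v.map_add _ _).trans (max_le (by rw [map_one]) ?_)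
  rw [map_mul, map_mul, map_pow, mul_assoc]
  refine mul_le_one' h.h3 ((mul_le_mul_right (pow_le_pow_left' hm 2) _).trans h.b1)

theorem Rad.cub (h : Rad v δ κ r) {m : k} (hm : v m ≤ r) : v (δ * m ^ 3) ≤ v 3 * r := by
  rw [map_mul, map_pow]
  calc v δ * v m ^ 3 ≤ v δ * r ^ 3 := mul_le_mul_right (pow_le_pow_left' hm 3) _
    _ = v δ * r ^ 2 * r := by rw [pow_succ r 2, mul_assoc]
    _ ≤ v 3 * r := mul_le_mul_left h.hb.le _

theorem Rad.itm_le (h : Rad v δ κ r) : ∀ n, v (itm δ κ n) ≤ r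
  | 0 => by rw [itm, map_zero]; exact zero_le
  | n + 1 => by
    have hm := Rad.itm_le h n
    have h3 : (3 : k) ≠ 0 := by rintro h'; exact h.h30 (by rw [h', map_zero])
    have h1 : v (3 * itm δ κ (n + 1)) ≤ v 3 * r := by
      rw [itm_succ h3, Valuation.map_neg]
      refine (v.map_add _ _).trans (max_le ?_ (h.cub hm))
      rw [map_mul]
      exact (mul_le_of_le_one_right' (h.one_add hm)).trans h.hκ
    rw [map_mul] at h1
    exact le_of_mul_le_mul_left h1 (zero_lt_iff.mpr h.h30)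

theorem Rad.diff (h : Rad v δ κ r) : ∀ n, v (itm δ κ (n + 1) - itm δ κ n) ≤
    (v δ * r ^ 2 / v 3) ^ n * r
  | 0 => by
    have h3 : (3 : k) ≠ 0 := by rintro h'; exact h.h30 (by rw [h', map_zero])
    have h1 : v (3 * itm δ κ (0 + 1)) ≤ v 3 * r := by
      rw [itm_succ h3, Valuation.map_neg, itm]
      simpa using h.hκ
    rw [map_mul] at h1
    rw [pow_zero, one_mul, itm.eq_def δ κ 0, sub_zero]
    exact le_of_mul_le_mul_left h1 (zero_lt_iff.mpr h.h30)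
  | n + 1 => by
    have hd := Rad.diff h n
    have h3 : (3 : k) ≠ 0 := by rintro h'; exact h.h30 (by rw [h', map_zero])
    have hm := h.itm_le n
    have hm' := h.itm_le (n + 1)
    set m := itm δ κ n
    set m' := itm δ κ (n + 1)
    have e1 : 3 * (itm δ κ (n + 1 + 1) - m') =
        -(δ * ((m' - m) * (3 * κ * (m' + m) + (m' * m' + m' * m + m * m)))) := by
      have e2 := itm_succ (δ := δ) (κ := κ) h3 (n + 1)
      have e3 := itm_succ (δ := δ) (κ := κ) h3 n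
      change 3 * itm δ κ (n + 1 + 1) = -(κ * (1 + 3 * δ * m' ^ 2) + δ * m' ^ 3) at e2
      change 3 * m' = -(κ * (1 + 3 * δ * m ^ 2) + δ * m ^ 3) at e3
      rw [mul_sub, e2, e3]
      ring
    have hmm : ∀ x y : k, v x ≤ r → v y ≤ r → v (x * y) ≤ r ^ 2 := by
      intro x y hx hy
      rw [map_mul, sq]
      exact mul_le_mul' hx hy
    have h4 : v (3 * κ * (m' + m) + (m' * m' + m' * m + m * m)) ≤ r ^ 2 := by
      refine (v.map_add _ _).trans (max_le ?_ ?_)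
      · refine hmm _ _ ?_ ((v.map_add _ _).trans (max_le hm' hm))
        rw [map_mul]
        exact (mul_le_of_le_one_left' h.h3).trans h.κ1
      · refine (v.map_add _ _).trans (max_le ((v.map_add _ _).trans (max_le ?_ ?_)) ?_)
        · exact hmm _ _ hm' hm'
        · exact hmm _ _ hm' hm
        · exact hmm _ _ hm hm
    have h5 : v 3 * v (itm δ κ (n + 1 + 1) - m') ≤
        v 3 * ((v δ * r ^ 2 / v 3) ^ (n + 1) * r) := by
      rw [← map_mul, e1, Valuation.map_neg, map_mul, map_mul]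
      calc v δ * (v (m' - m) * v (3 * κ * (m' + m) + (m' * m' + m' * m + m * m)))
          ≤ v δ * ((v δ * r ^ 2 / v 3) ^ n * r * r ^ 2) :=
            mul_le_mul_right (mul_le_mul' hd h4) _
        _ = v 3 * ((v δ * r ^ 2 / v 3) ^ (n + 1) * r) := by
            have := h.h30
            rw [pow_succ (v δ * r ^ 2 / v 3) n]
            field_simp
    exact le_of_mul_le_mul_left h5 (zero_lt_iff.mpr h.h30)

theorem Rad.val_d (h : Rad v δ κ r) {m : k} (hm : v m ≤ r) : v (1 - δ * m ^ 2) = 1 := by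
  have h1 : v (δ * m ^ 2) < 1 := by
    rw [map_mul, map_pow]
    exact (mul_le_mul_right (pow_le_pow_left' hm 2) _).trans_lt (h.hb.trans_le h.h3)
  have h2 : v (1 : k) = 1 := map_one v
  rw [Valuation.map_sub_eq_of_lt_left v (by rwa [h2]), h2]

theorem Rad.val_A (h : Rad v δ κ r) {m : k} (hm : v m ≤ r) :
    v (1 + 3 * δ * m ^ 2 + δ * κ * (3 * m + δ * m ^ 3)) ≤ 1 := by
  refine (v.map_add _ _).trans (max_le (h.one_add hm) ?_)
  have h1 : v (3 * m + δ * m ^ 3) ≤ r := by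
    refine (v.map_add _ _).trans (max_le ?_ ((h.cub hm).trans (mul_le_of_le_one_left' h.h3)))
    rw [map_mul]
    exact (mul_le_of_le_one_left' h.h3).trans hm
  rw [map_mul, map_mul]
  calc v δ * v κ * v (3 * m + δ * m ^ 3) ≤ v δ * r * r :=
        mul_le_mul' (mul_le_mul_right h.κ1 _) h1
    _ = v δ * r ^ 2 := by rw [mul_assoc, sq]
    _ ≤ 1 := h.b1

theorem Rad.val_B (h : Rad v δ κ r) (n : ℕ) :
    v (3 * itm δ κ n + δ * itm δ κ n ^ 3 + κ * (1 + 3 * δ * itm δ κ n ^ 2)) ≤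
      (v δ * r ^ 2 / v 3) ^ n * r := by
  have h3 : (3 : k) ≠ 0 := by rintro h'; exact h.h30 (by rw [h', map_zero])
  have e1 : 3 * itm δ κ n + δ * itm δ κ n ^ 3 + κ * (1 + 3 * δ * itm δ κ n ^ 2) =
      -(3 * (itm δ κ (n + 1) - itm δ κ n)) := by
    rw [mul_sub, itm_succ h3]
    ring
  rw [e1, Valuation.map_neg, map_mul]
  exact (mul_le_of_le_one_left' h.h3).trans (h.diff n)

/-- The two errors are small. -/
theorem Rad.out (h : Rad v δ κ r) (n : ℕ) {g d A B : k} (hg : g = 1 - δ * κ ^ 2)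
    (hd : d = 1 - δ * itm δ κ n ^ 2)
    (hA : A = 1 + 3 * δ * itm δ κ n ^ 2 + δ * κ * (3 * itm δ κ n + δ * itm δ κ n ^ 3))
    (hB : B = 3 * itm δ κ n + δ * itm δ κ n ^ 3 + κ * (1 + 3 * δ * itm δ κ n ^ 2)) :
    v (2 * δ * B ^ 2 / (g * d ^ 3)) ≤ (v δ * r ^ 2 / v 3) ^ n ∧
      v (2 * A * B / (g * d ^ 3)) ≤ (v δ * r ^ 2 / v 3) ^ n := by
  have hvd : v d = 1 := by rw [hd]; exact h.val_d (h.itm_le n)
  have hvg : v g = 1 := by rw [hg]; exact h.val_d h.κ1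
  have hvB : v B ≤ (v δ * r ^ 2 / v 3) ^ n * r := by rw [hB]; exact h.val_B n
  have hvA : v A ≤ 1 := by rw [hA]; exact h.val_A (h.itm_le n)
  have hθ : v δ * r ^ 2 / v 3 ≤ 1 := by
    rw [div_le_one₀ (zero_lt_iff.mpr h.h30)]
    exact h.hb.le
  have hθn : (v δ * r ^ 2 / v 3) ^ n ≤ 1 := pow_le_one' hθ n
  constructor
  · rw [map_div₀, map_mul, map_mul, map_mul, map_pow, map_pow, hvd, hvg, one_pow, mul_one,
      div_one]
    calc v 2 * v δ * v B ^ 2 ≤ 1 * v δ * ((v δ * r ^ 2 / v 3) ^ n * r) ^ 2 :=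
          mul_le_mul' (mul_le_mul_left h.h2 _) (pow_le_pow_left' hvB 2)
      _ = (v δ * r ^ 2) * (v δ * r ^ 2 / v 3) ^ n * (v δ * r ^ 2 / v 3) ^ n := by
          rw [one_mul, mul_pow, sq ((v δ * r ^ 2 / v 3) ^ n)]
          ac_rfl
      _ ≤ 1 * 1 * (v δ * r ^ 2 / v 3) ^ n :=
          mul_le_mul_left (mul_le_mul' h.b1 hθn) _
      _ = (v δ * r ^ 2 / v 3) ^ n := by rw [one_mul, one_mul]
  · rw [map_div₀, map_mul, map_mul, map_mul, map_pow, hvd, hvg, one_pow, mul_one, div_one]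
    calc v 2 * v A * v B ≤ 1 * 1 * ((v δ * r ^ 2 / v 3) ^ n * r) :=
          mul_le_mul' (mul_le_mul' h.h2 hvA) hvB
      _ ≤ (v δ * r ^ 2 / v 3) ^ n := by
          rw [one_mul, one_mul]
          exact mul_le_of_le_one_right' h.hr

end seq

/-- The algebraic identities behind the parametrization of the norm torus. -/
theorem torus_real {k : Type} [Field k] {δ m κ g d : k} (hg : g = 1 - δ * κ ^ 2)
    (hd : d = 1 - δ * m ^ 2) (hg0 : g ≠ 0) (hd0 : d ≠ 0) :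
    (1 + δ * κ ^ 2) / g * (((1 + δ * m ^ 2) / d) ^ 3 +
        3 * δ * ((1 + δ * m ^ 2) / d) * (2 * m / d) ^ 2) +
      δ * (2 * κ / g) * (3 * ((1 + δ * m ^ 2) / d) ^ 2 * (2 * m / d) + δ * (2 * m / d) ^ 3) - 1 =
    2 * δ * (3 * m + δ * m ^ 3 + κ * (1 + 3 * δ * m ^ 2)) ^ 2 / (g * d ^ 3) := by
  field_simp
  rw [hg, hd]
  ring

theorem torus_im {k : Type} [Field k] {δ m κ g d : k} (hg0 : g ≠ 0) (hd0 : d ≠ 0) :
    (1 + δ * κ ^ 2) / g * (3 * ((1 + δ * m ^ 2) / d) ^ 2 * (2 * m / d) + δ * (2 * m / d) ^ 3) +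
      (2 * κ / g) * (((1 + δ * m ^ 2) / d) ^ 3 +
        3 * δ * ((1 + δ * m ^ 2) / d) * (2 * m / d) ^ 2) =
    2 * (1 + 3 * δ * m ^ 2 + δ * κ * (3 * m + δ * m ^ 3)) *
      (3 * m + δ * m ^ 3 + κ * (1 + 3 * δ * m ^ 2)) / (g * d ^ 3) := by
  field_simp
  ring

/-- Powers of an element below one get below every nonzero bound, from some point on. -/
theorem ev_pow_lt {θ x : ℝ≥0} (hθ : θ < 1) (hx : x ≠ 0) : ∃ N : ℕ, ∀ n, N ≤ n → θ ^ n < x := by
  obtain ⟨N, hN⟩ := exists_pow_lt_of_lt_one (zero_lt_iff.mpr hx) hθ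
  exact ⟨N, fun n hn => (pow_le_pow_right_of_le_one' hθ.le hn).trans_lt hN⟩

theorem exists_lt_nn {x : ℝ≥0} (hx : x ≠ 0) : ∃ y : ℝ≥0, y ≠ 0 ∧ y < x := by
  obtain ⟨y, hy0, hy⟩ := exists_between (zero_lt_iff.mpr hx)
  exact ⟨y, hy0.ne', hy⟩

theorem min_ne {x y : ℝ≥0} (hx : x ≠ 0) (hy : y ≠ 0) : min x y ≠ 0 := by
  rcases min_choice x y with h | h <;> rw [h] <;> assumption

/-- A radius. -/
theorem exists_rad {a b ε : ℝ≥0} (ha : a ≠ 0) (hb : b ≠ 0) (hε : ε ≠ 0) :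
    ∃ r : ℝ≥0, r ≠ 0 ∧ r ≤ 1 ∧ r < ε ∧ b * r ^ 2 < a ∧ b * r ^ 2 < ε := by
  obtain ⟨r, hr0, hr⟩ := exists_lt_nn (min_ne (one_ne_zero (α := ℝ≥0))
    (min_ne hε (min_ne (div_ne_zero ha hb) (div_ne_zero hε hb))))
  rw [lt_min_iff, lt_min_iff, lt_min_iff, lt_div_iff₀ (zero_lt_iff.mpr hb),
    lt_div_iff₀ (zero_lt_iff.mpr hb)] at hr
  obtain ⟨h1, h2, h3, h4⟩ := hr
  have h5 : b * r ^ 2 ≤ r * b := by
    rw [sq, ← mul_assoc, mul_comm b r]
    exact mul_le_of_le_one_right' h1.le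
  exact ⟨r, hr0, h1.le, h2, h5.trans_lt h3, h5.trans_lt h4⟩

/-- Points of the norm torus near the identity are cubes of points near the identity, up to an
arbitrarily small error: an arbitrary family of valuations. -/
theorem exists_cube_val {k ι : Type} [Field k] (w : ι → Valuation k ℝ≥0) (hw2 : ∀ i, w i 2 ≤ 1)
    (hw3 : ∀ i, w i 3 ≤ 1) (h2 : (2 : k) ≠ 0) (h3 : (3 : k) ≠ 0) (δ : k) (hδ : δ ≠ 0)
    {S : Set ι} (hS : S.Finite) (ε : ι → ℝ≥0) (hε : ∀ v, ε v ≠ 0) :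
    ∃ c : ι → ℝ≥0, (∀ v, c v ≠ 0) ∧ ∀ p u : k, p ^ 2 - δ * u ^ 2 = 1 →
      (∀ v ∈ S, w v (p - 1) < c v ∧ w v u < c v) →
      ∀ η : ι → ℝ≥0, (∀ v, η v ≠ 0) →
      ∃ P U : k, P ^ 2 - δ * U ^ 2 = 1 ∧
        (∀ v ∈ S, w v (P - 1) < ε v ∧ w v U < ε v) ∧
        ∀ v ∈ S,
          w v (p * (P ^ 3 + 3 * δ * P * U ^ 2) +
            δ * u * (3 * P ^ 2 * U + δ * U ^ 3) - 1) < η v ∧
          w v (p * (3 * P ^ 2 * U + δ * U ^ 3) + u * (P ^ 3 + 3 * δ * P * U ^ 2)) <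
            η v := by
  have h20 : ∀ v, w v 2 ≠ 0 := fun v => (Valuation.ne_zero_iff _).mpr h2
  have h30 : ∀ v, w v 3 ≠ 0 := fun v => (Valuation.ne_zero_iff _).mpr h3
  have hδ0 : ∀ v, w v δ ≠ 0 := fun v => (Valuation.ne_zero_iff _).mpr hδ
  choose r hr0 hr1 hrε hra hrb using fun v => exists_rad (h30 v) (hδ0 v) (hε v)
  refine ⟨fun v => w v 2 * (w v 3 * r v),
    fun v => mul_ne_zero (h20 v) (mul_ne_zero (h30 v) (hr0 v)), ?_⟩
  intro p u hpu hnear η hη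
  rcases S.eq_empty_or_nonempty with hSe | ⟨v₀, hv₀⟩
  · refine ⟨1, 0, by ring, fun v hv => ?_, fun v hv => ?_⟩ <;> rw [hSe] at hv <;> exact hv.elim
  obtain ⟨κ, hκ⟩ : ∃ κ : k, κ = u / (1 + p) := ⟨_, rfl⟩
  have hp1 : ∀ v ∈ S, w v (1 + p) = w v 2 := by
    intro v hv
    have e : (1 + p : k) = 2 + (p - 1) := by ring
    rw [e]
    refine Valuation.map_add_eq_of_lt_left _ ((hnear v hv).1.trans_le ?_)
    exact mul_le_of_le_one_right' (mul_le_one' (hw3 v) (hr1 v))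
  have hp0 : (1 + p : k) ≠ 0 := by
    rw [← Valuation.ne_zero_iff (w v₀), hp1 v₀ hv₀]
    exact h20 v₀
  have hrad : ∀ v ∈ S, Rad (w v) δ κ (r v) := by
    intro v hv
    refine ⟨hw2 v, hw3 v, h30 v, hr1 v, hra v, ?_⟩
    rw [hκ, map_div₀, hp1 v hv, div_le_iff₀ (zero_lt_iff.mpr (h20 v)), mul_comm _ (w v 2)]
    exact (hnear v hv).2.le
  have hn : ∀ v : ι, ∃ N : ℕ, ∀ n, N ≤ n → (w v δ * r v ^ 2 / w v 3) ^ n < η v := by
    intro v
    refine ev_pow_lt ?_ (hη v)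
    rw [div_lt_one₀ (zero_lt_iff.mpr (h30 v))]
    exact hra v
  choose N hN using hn
  obtain ⟨n, hn⟩ : ∃ n : ℕ, ∀ v ∈ S, N v ≤ n :=
    ⟨hS.toFinset.sup N, fun v hv => Finset.le_sup (f := N) (hS.mem_toFinset.mpr hv)⟩
  obtain ⟨m, hm⟩ : ∃ m : k, m = itm δ κ n := ⟨_, rfl⟩
  obtain ⟨g, hg⟩ : ∃ g : k, g = 1 - δ * κ ^ 2 := ⟨_, rfl⟩
  obtain ⟨d, hd⟩ : ∃ d : k, d = 1 - δ * m ^ 2 := ⟨_, rfl⟩
  have hmr : ∀ v ∈ S, w v m ≤ r v := fun v hv => by rw [hm]; exact (hrad v hv).itm_le n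
  have hvd : ∀ v ∈ S, w v d = 1 := fun v hv => by
    rw [hd]; exact (hrad v hv).val_d (hmr v hv)
  have hvg : ∀ v ∈ S, w v g = 1 := fun v hv => by
    rw [hg]; exact (hrad v hv).val_d (hrad v hv).κ1
  have hd0 : d ≠ 0 := by
    rw [← Valuation.ne_zero_iff (w v₀), hvd v₀ hv₀]
    exact one_ne_zero
  have hg0 : g ≠ 0 := by
    rw [← Valuation.ne_zero_iff (w v₀), hvg v₀ hv₀]
    exact one_ne_zero
  have hg2 : g * (1 + p) = 2 := by
    have e : g * (1 + p) ^ 2 = 2 * (1 + p) := by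
      rw [hg, hκ]
      field_simp
      linear_combination hpu
    have e' : (g * (1 + p) - 2) * (1 + p) = 0 := by linear_combination e
    rcases mul_eq_zero.mp e' with h | h
    · exact sub_eq_zero.mp h
    · exact absurd h hp0
  have hu : u = 2 * κ / g := by
    rw [eq_div_iff hg0, ← hg2, hκ]
    field_simp
  have hp : p = (1 + δ * κ ^ 2) / g := by
    rw [eq_div_iff hg0]
    linear_combination hg2 - hg
  refine ⟨(1 + δ * m ^ 2) / d, 2 * m / d, ?_, fun v hv => ⟨?_, ?_⟩, fun v hv => ?_⟩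
  · field_simp
    rw [hd]
    ring
  · have e : (1 + δ * m ^ 2) / d - 1 = 2 * (δ * m ^ 2) / d := by
      rw [div_sub_one hd0, hd]
      congr 1
      ring
    rw [e, map_div₀, hvd v hv, div_one, map_mul, map_mul, map_pow]
    refine (mul_le_of_le_one_left' (hw2 v)).trans_lt (lt_of_le_of_lt ?_ (hrb v))
    exact mul_le_mul_right (pow_le_pow_left' (hmr v hv) 2) _
  · rw [map_div₀, hvd v hv, div_one, map_mul]
    exact ((mul_le_of_le_one_left' (hw2 v)).trans (hmr v hv)).trans_lt (hrε v)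
  · obtain ⟨o1, o2⟩ := (hrad v hv).out n (d := d) hg (by rw [hd, hm]) rfl rfl
    rw [← hm] at o1 o2
    rw [hp, hu, torus_real hg hd hg0 hd0, torus_im hg0 hd0]
    exact ⟨o1.trans_lt (hN v n (hn v hv)), o2.trans_lt (hN v n (hn v hv))⟩

/-- **Cube roots in the norm torus**, over a global function field. -/
theorem exists_cubeF {k : Type} [Field k] [GFF k] (h2 : (2 : k) ≠ 0) (h3 : (3 : k) ≠ 0) (δ : k)
    (hδ : δ ≠ 0) {S : Set (Place k)} (hS : S.Finite) (ε : Place k → ℝ) (hε : ∀ v, 0 < ε v) :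
    ∃ c : Place k → ℝ, (∀ v, 0 < c v) ∧ ∀ p u : k, p ^ 2 - δ * u ^ 2 = 1 →
      (∀ v ∈ S, v.abv (p - 1) < c v ∧ v.abv u < c v) →
      ∀ η : Place k → ℝ, (∀ v, 0 < η v) →
      ∃ P U : k, P ^ 2 - δ * U ^ 2 = 1 ∧
        (∀ v ∈ S, v.abv (P - 1) < ε v ∧ v.abv U < ε v) ∧
        ∀ v ∈ S,
          v.abv (p * (P ^ 3 + 3 * δ * P * U ^ 2) +
            δ * u * (3 * P ^ 2 * U + δ * U ^ 3) - 1) < η v ∧
          v.abv (p * (3 * P ^ 2 * U + δ * U ^ 3) + u * (P ^ 3 + 3 * δ * P * U ^ 2)) < η v := by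
  have hn : ∀ {m : ℕ} (_ : (m : k) ≠ 0) (v : Place k), vr v (m : k) ≤ 1 := by
    intro m hm v
    rw [vr_le_one]
    exact (Hey.H63.abv_nat_eq_one v hm).le
  have key : ∀ (v : Place k) (x : k) {e : ℝ} (he : 0 < e),
      vr v x < e.toNNReal ↔ v.abv x < e := by
    intro v x e he
    rw [← NNReal.coe_lt_coe, coe_vr, Real.coe_toNNReal _ he.le]
  obtain ⟨c, hc0, hc⟩ := exists_cube_val (fun v : Place k => vr v)
    (fun v => by simpa using hn (m := 2) (by simpa using h2) v)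
    (fun v => by simpa using hn (m := 3) (by simpa using h3) v) h2 h3 δ hδ hS
    (fun v => (ε v).toNNReal) (fun v => (Real.toNNReal_pos.2 (hε v)).ne')
  refine ⟨fun v => (c v : ℝ), fun v => NNReal.coe_pos.2 (zero_lt_iff.2 (hc0 v)), ?_⟩
  intro p u hpu hnear η hη
  obtain ⟨P, U, hPU, h4, h5⟩ := hc p u hpu (fun v hv => by
      obtain ⟨h6, h7⟩ := hnear v hv
      rw [← coe_vr, NNReal.coe_lt_coe] at h6 h7
      exact ⟨h6, h7⟩) (fun v => (η v).toNNReal) (fun v => (Real.toNNReal_pos.2 (hη v)).ne')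
  refine ⟨P, U, hPU, fun v hv => ?_, fun v hv => ?_⟩
  · obtain ⟨h6, h7⟩ := h4 v hv
    exact ⟨(key v _ (hε v)).mp h6, (key v _ (hε v)).mp h7⟩
  · obtain ⟨h6, h7⟩ := h5 v hv
    exact ⟨(key v _ (hη v)).mp h6, (key v _ (hη v)).mp h7⟩

end Vale.Agent.P011.H496.CF
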