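import Vale.Agent.P011.H271.AvoidF

/-!
# Unit values of polynomials on grids

A polynomial in several variables with integral coefficients, one of which is a unit, has a unit
value on every grid which is large compared with the degrees and distinct modulo the place.
-/

open Module MvPolynomial
open scoped NNReal

set_option linter.unusedSectionVars false

namespace Vale.Agent.P011.H496.GridF

open Vale.Agent.P011.H738 Vale.Agent.P011.H271 Vale.Agent.P011.H271.ConF

section gen

variable {K Γ : Type*} [Field K] [LinearOrderedCommGroupWithZero Γ]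

/-- **Unit values on a grid.** -/
theorem exists_unit_point (w : Valuation K Γ) {Θ : Finset K} (h1 : ∀ a ∈ Θ, w a ≤ 1)
    (h2 : ∀ a ∈ Θ, ∀ b ∈ Θ, a ≠ b → w (a - b) = 1) :
    ∀ (N : ℕ) (P : MvPolynomial (Fin N) K), (∀ i, P.degreeOf i < Θ.card) →
      (∀ m, w (coeff m P) ≤ 1) → (∃ m, 1 ≤ w (coeff m P)) →
      ∃ x : Fin N → K, (∀ i, x i ∈ Θ) ∧ w (eval x P) = 1 := by
  intro N
  induction N with
  | zero =>
    rintro P - hP ⟨m, hm⟩
    refine ⟨Fin.elim0, fun i => i.elim0, ?_⟩
    have hm0 : m = 0 := Subsingleton.elim _ _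
    rw [hm0] at hm
    have h3 : eval (Fin.elim0 : Fin 0 → K) P = coeff 0 P := by
      rw [MvPolynomial.eq_C_of_isEmpty P, eval_C, coeff_C, if_pos rfl]
    rw [h3]
    exact le_antisymm (hP 0) hm
  | succ N ih =>
    rintro P hdeg hP ⟨m, hm⟩
    obtain ⟨Q, hQ⟩ : ∃ Q, Q = (finSuccEquiv K N P).coeff (m 0) := ⟨_, rfl⟩
    have hco : ∀ (j : ℕ) (m' : Fin N →₀ ℕ), coeff m' ((finSuccEquiv K N P).coeff j) =
        coeff (m'.cons j) P := fun j m' => finSuccEquiv_coeff_coeff m' P j
    obtain ⟨x, hx, hx1⟩ := ih Q (fun i => by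
        rw [hQ]
        exact (degreeOf_coeff_finSuccEquiv P i _).trans_lt (hdeg i.succ)) (fun m' => by
        rw [hQ, hco]
        exact hP _) ⟨m.tail, by
        rw [hQ, hco, Finsupp.cons_tail]
        exact hm⟩
    obtain ⟨f, hf⟩ : ∃ f : Polynomial K, f = Polynomial.map (eval x) (finSuccEquiv K N P) :=
      ⟨_, rfl⟩
    have hfc : ∀ j, f.coeff j = eval x ((finSuccEquiv K N P).coeff j) := fun j => by
      rw [hf, Polynomial.coeff_map]
    have hfd : f.natDegree < Θ.card := by
      have h3 : f.natDegree ≤ (finSuccEquiv K N P).natDegree := by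
        rw [hf]
        exact Polynomial.natDegree_map_le
      rw [natDegree_finSuccEquiv] at h3
      exact h3.trans_lt (hdeg 0)
    have hfi : ∀ j, w (f.coeff j) ≤ 1 := fun j => by
      rw [hfc]
      refine AvoidF.eval_int w _ (fun m' => ?_) x fun i => h1 _ (hx i)
      rw [hco]
      exact hP _
    obtain ⟨a, ha, ha1⟩ := AvoidF.exists_unit_value w f (j := m 0) (by rw [hfc, ← hQ, hx1]) h1 h2 hfd
    refine ⟨Fin.cons a x, fun i => ?_, ?_⟩
    · refine Fin.cases ?_ (fun j => ?_) i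
      · rw [Fin.cons_zero]
        exact ha
      · rw [Fin.cons_succ]
        exact hx j
    · have h4 : eval (Fin.cons a x) P = f.eval a := by
        rw [hf]
        exact eval_eq_eval_mv_eval' x a P
      rw [h4]
      refine le_antisymm ?_ ha1
      rw [Polynomial.eval_eq_sum_range]
      refine Valuation.map_sum_le _ fun i _ => ?_
      rw [map_mul, map_pow]
      exact mul_le_one' (hfi i) (pow_le_one' (h1 a ha) _)

end gen

variable {k : Type} [Field k]

/-- The version with the absolute value of a place. -/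
theorem exists_unit_point_abv (v : Place k) {Θ : Finset k} (h1 : ∀ a ∈ Θ, v.abv a ≤ 1)
    (h2 : ∀ a ∈ Θ, ∀ b ∈ Θ, a ≠ b → v.abv (a - b) = 1) {N : ℕ} (P : MvPolynomial (Fin N) k)
    (hdeg : ∀ i, P.degreeOf i < Θ.card) (hP : ∀ m, v.abv (coeff m P) ≤ 1)
    (h : ∃ m, v.abv (coeff m P) = 1) : ∃ x : Fin N → k, (∀ i, x i ∈ Θ) ∧ v.abv (eval x P) = 1 := by
  obtain ⟨m, hm⟩ := h
  obtain ⟨x, hx, hx1⟩ := exists_unit_point (vr v) (Θ := Θ) (fun a ha => vr_le_one.2 (h1 a ha))
    (fun a ha b hb hab => vr_eq_one.2 (h2 a ha b hb hab)) N P hdeg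
    (fun m => vr_le_one.2 (hP m)) ⟨m, (vr_eq_one.2 hm).ge⟩
  exact ⟨x, hx, vr_eq_one.1 hx1⟩

end Vale.Agent.P011.H496.GridF
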