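import Vale.Agent.P011.H271.AvoidF

/-!
# Polynomials with integral values on a grid have integral coefficients
-/

open Module Polynomial
open scoped NNReal

set_option linter.unusedSectionVars false

namespace Vale.Agent.P011.H496.NumF

open Vale.Agent.P011.H738 Vale.Agent.P011.H271 Vale.Agent.P011.H271.ConF

variable {k : Type} [Field k]

/-- **Integral values on a grid give integral coefficients.** -/
theorem poly_int {v : Place k} {m : ℕ} {U : k[X]} (hU : U.natDegree ≤ m) {Θ : Finset k}
    (h1 : ∀ x ∈ Θ, v.abv x ≤ 1) (h2 : ∀ x ∈ Θ, ∀ y ∈ Θ, x ≠ y → v.abv (x - y) = 1)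
    (hc : m < Θ.card) (h : ∀ x ∈ Θ, v.abv (U.eval x) ≤ 1) : ∀ l, v.abv (U.coeff l) ≤ 1 := by
  classical
  intro l
  rw [← vr_le_one]
  have e : U = Lagrange.interpolate Θ id fun i => U.eval (id i) :=
    Lagrange.eq_interpolate (fun a _ b _ h => h)
      (lt_of_le_of_lt degree_le_natDegree (by exact_mod_cast hU.trans_lt hc))
  rw [e, Lagrange.interpolate_apply, finsetSum_coeff]
  refine Valuation.map_sum_le _ fun a ha => ?_
  rw [coeff_C_mul, map_mul]
  refine mul_le_one' (vr_le_one.2 (h a ha)) ?_
  refine AvoidF.intAt_prod _ (fun b hb => ?_) l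
  rw [Finset.mem_erase] at hb
  have h4 : vr v (a - b) = 1 := vr_eq_one.2 (h2 a ha b hb.2 hb.1.symm)
  refine AvoidF.intAt_mul (fun i => ?_) (fun i => ?_)
  · rw [coeff_C]
    split_ifs
    · rw [map_inv₀]
      change (vr v (a - b))⁻¹ ≤ 1
      rw [h4, inv_one]
    · rw [map_zero]
      exact zero_le_one
  · rw [coeff_sub, coeff_X, coeff_C]
    refine ((vr v).map_sub _ _).trans (max_le ?_ ?_)
    · split_ifs
      · rw [map_one]
      · rw [map_zero]
        exact zero_le_one
    · split_ifs
      · exact vr_le_one.2 (h1 b hb.2)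
      · rw [map_zero]
        exact zero_le_one

end Vale.Agent.P011.H496.NumF
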